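import Vale.Agent.P361.LRO.Dict.LimDefs
import Vale.Agent.P361.LRO.Tilt

/-!
P361, step (5): lower bound for the magnetization in the presence of the extra slice `T`, in the
limit `N → ∞` and for the circuit (from the Trotter limit `D3`).
-/

namespace Vale.Agent.P361.LRO

open Finset Matrix

noncomputable section

section Exp

variable {α : Type*} [Fintype α] [DecidableEq α]

theorem exp_entry_hasSum (A : Matrix α α ℝ) (a a' : α) :
    HasSum (fun m : ℕ => ((m.factorial : ℝ)⁻¹) * (A ^ m) a a') ((NormedSpace.exp A) a a') := by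
  have h : HasSum (fun m : ℕ => ((m.factorial : ℝ)⁻¹) • A ^ m) (NormedSpace.exp A) := by
    open scoped Norms.Operator in exact NormedSpace.exp_series_hasSum_exp' A
  have h1 := Pi.hasSum.1 h a
  have h2 := Pi.hasSum.1 h1 a'
  exact h2

theorem pow_entry_nonneg {A : Matrix α α ℝ} (h : ∀ a a', 0 ≤ A a a') (m : ℕ) (a a' : α) :
    0 ≤ (A ^ m) a a' := by
  induction m generalizing a a' with
  | zero => rw [pow_zero, Matrix.one_apply]; split_ifs <;> norm_num
  | succ m ih =>
    rw [pow_succ, Matrix.mul_apply]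
    exact sum_nonneg fun b _ => mul_nonneg (ih _ _) (h _ _)

theorem exp_entry_ge_one {A : Matrix α α ℝ} (h : ∀ a a', 0 ≤ A a a') (a a' : α) :
    (1 : Matrix α α ℝ) a a' ≤ (NormedSpace.exp A) a a' := by
  have h1 := exp_entry_hasSum A a a'
  have h2 := le_hasSum h1 0 fun m _ => mul_nonneg (by positivity) (pow_entry_nonneg h m a a')
  simpa using h2

theorem exp_add_const (A : Matrix α α ℝ) (s : ℝ) :
    NormedSpace.exp (s • (1 : Matrix α α ℝ) + A) = Real.exp s • NormedSpace.exp A := by
  have hc : Commute (s • (1 : Matrix α α ℝ)) A := (Commute.one_left A).smul_left s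
  rw [Matrix.exp_add_of_commute _ _ hc]
  have h1 : (s • (1 : Matrix α α ℝ)) = diagonal fun _ => s := by
    rw [Matrix.smul_one_eq_diagonal]
  have h2 : NormedSpace.exp (fun _ : α => s) = fun _ => Real.exp s := by
    rw [Pi.exp_def]; funext i; rw [Real.exp_eq_exp_ℝ]
  rw [h1, Matrix.exp_diagonal, h2, ← Matrix.smul_one_eq_diagonal, Matrix.smul_mul, Matrix.one_mul]

/-- Exponentials of matrices with nonnegative off-diagonal entries. -/
theorem exp_offdiag {A : Matrix α α ℝ} (h : ∀ a a', a ≠ a' → 0 ≤ A a a') :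
    (∀ a a', 0 ≤ NormedSpace.exp A a a') ∧ ∀ a, 0 < NormedSpace.exp A a a := by
  set c : ℝ := ∑ a, |A a a| with hc
  have h1 : ∀ a a', 0 ≤ (c • (1 : Matrix α α ℝ) + A) a a' := by
    intro a a'
    rw [Matrix.add_apply, Matrix.smul_apply]
    by_cases e : a = a'
    · subst e
      rw [Matrix.one_apply_eq, smul_eq_mul, mul_one]
      have h4 : |A a a| ≤ c := Finset.single_le_sum (f := fun a => |A a a|)
        (fun a _ => abs_nonneg _) (Finset.mem_univ a)
      have h3 := neg_abs_le (A a a)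
      linarith
    · rw [Matrix.one_apply_ne e, smul_zero, zero_add]
      exact h a a' e
  have h2 : NormedSpace.exp A = Real.exp (-c) • NormedSpace.exp (c • (1 : Matrix α α ℝ) + A) := by
    rw [exp_add_const, smul_smul, ← Real.exp_add, neg_add_cancel, Real.exp_zero, one_smul]
  have h3 := exp_entry_ge_one h1
  constructor
  · intro a a'
    rw [h2, Matrix.smul_apply]
    refine mul_nonneg (Real.exp_pos _).le (le_trans ?_ (h3 a a'))
    rw [Matrix.one_apply]; split_ifs <;> norm_num
  · intro a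
    rw [h2, Matrix.smul_apply]
    refine mul_pos (Real.exp_pos _) (lt_of_lt_of_le ?_ (h3 a a))
    rw [Matrix.one_apply_eq]; norm_num

end Exp

variable {V : Type} [Fintype V] [DecidableEq V]

theorem hM_offdiag (x y : V) {σ τ : V → Fin 2} (hne : σ ≠ τ) : hM x y σ τ ≤ 0 := by
  unfold hM swapM
  rw [Matrix.smul_apply, Matrix.sub_apply, Matrix.one_apply_ne hne, Matrix.of_apply, smul_eq_mul]
  split_ifs <;> norm_num

theorem ham_offdiag (L : List (V × V)) (h : V → ℝ) {σ τ : V → Fin 2} (hne : σ ≠ τ) :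
    ham L h σ τ ≤ 0 := by
  unfold ham
  rw [Matrix.sub_apply]
  have h1 : ∀ L : List (V × V), (L.map fun e => hM e.1 e.2).sum σ τ ≤ 0 := by
    intro L
    induction L with
    | nil => simp
    | cons e L ih =>
      rw [List.map_cons, List.sum_cons, Matrix.add_apply]
      have := hM_offdiag e.1 e.2 hne
      linarith
  have h2 : (∑ x, (h x / 2) • szM x) σ τ = 0 := by
    rw [Matrix.sum_apply]
    refine Finset.sum_eq_zero fun x _ => ?_
    rw [Matrix.smul_apply, szM, Matrix.diagonal_apply_ne _ hne, smul_zero]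
  rw [h2, sub_zero]
  exact h1 L

theorem exp_ham (L : List (V × V)) (h : V → ℝ) {s : ℝ} (hs : 0 ≤ s) :
    (∀ σ τ, 0 ≤ NormedSpace.exp (-s • ham L h) σ τ) ∧
      ∀ σ, 0 < NormedSpace.exp (-s • ham L h) σ σ := by
  refine exp_offdiag fun σ τ hne => ?_
  rw [Matrix.smul_apply, smul_eq_mul]
  have := ham_offdiag L h hne
  nlinarith

/-- Number of down spins in `b`. -/
def nb (b : Finset V) (σ : V → Fin 2) : ℝ := ∑ x ∈ b, if σ x = 0 then 0 else 1

omit [Fintype V] [DecidableEq V] in
theorem nb_nonneg (b : Finset V) (σ : V → Fin 2) : 0 ≤ nb b σ :=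
  Finset.sum_nonneg fun x _ => by split_ifs <;> norm_num

theorem one_sub_tanh (u : ℝ) : 1 - Real.tanh u = (1 + Real.tanh u) * Real.exp (-(2 * u)) := by
  rw [Real.tanh_eq_sinh_div_cosh]
  have hc : Real.cosh u ≠ 0 := (Real.cosh_pos u).ne'
  have h1 : (1 + Real.sinh u / Real.cosh u) = Real.exp u / Real.cosh u := by
    rw [← Real.cosh_add_sinh]; field_simp
  have h2 : (1 - Real.sinh u / Real.cosh u) = Real.exp (-u) / Real.cosh u := by
    rw [← Real.cosh_sub_sinh]; field_simp
  rw [h1, h2, div_mul_eq_mul_div, ← Real.exp_add]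
  congr 2
  ring

theorem layT_blk (K : ℝ) (b : Finset V) (hb : b.Nonempty) :
    layT (blk K b) = (1 + Real.tanh (K / (2 * b.card))) ^ b.card •
      diagonal fun σ => Real.exp (-(K / b.card * nb b σ)) := by
  have hb0 : (b.card : ℝ) ≠ 0 := by exact_mod_cast hb.card_pos.ne'
  set θ := Real.tanh (K / (2 * b.card)) with hθ
  have h1 : 1 - θ = (1 + θ) * Real.exp (-(K / b.card)) := by
    rw [hθ, one_sub_tanh]
    congr 2
    field_simp
  unfold layT
  rw [← Matrix.diagonal_smul]
  congr 1
  funext σ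
  rw [Pi.smul_apply, smul_eq_mul]
  have h2 : ∀ x, (1 + blk K b x * (if σ x = 0 then (1 : ℝ) else -1)) =
      if x ∈ b then (1 + θ) * Real.exp (-(K / b.card * if σ x = 0 then 0 else 1)) else 1 := by
    intro x
    unfold blk
    by_cases hx : x ∈ b
    · rw [if_pos hx, if_pos hx]
      by_cases h3 : σ x = 0
      · rw [if_pos h3, if_pos h3, mul_one, mul_zero, neg_zero, Real.exp_zero, mul_one]
      · rw [if_neg h3, if_neg h3, mul_one, ← h1]; ring
    · rw [if_neg hx, if_neg hx]; ring
  rw [Finset.prod_congr rfl fun x _ => h2 x, Finset.prod_ite_mem, Finset.univ_inter,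
    Finset.prod_mul_distrib, Finset.prod_const, ← Real.exp_sum]
  congr 2
  unfold nb
  rw [Finset.mul_sum, ← Finset.sum_neg_distrib]

/-- projection on down at `x` -/
def dn (x : V) (σ : V → Fin 2) : ℝ := if σ x = 0 then 0 else 1

omit [DecidableEq V] in
theorem szM_eq (x : V) : szM x = 1 - (2 : ℝ) • diagonal (dn x) := by
  unfold szM dn
  rw [← Matrix.diagonal_one, ← Matrix.diagonal_smul, Matrix.diagonal_sub]
  congr 1
  funext σ
  rw [Pi.smul_apply, smul_eq_mul]
  split_ifs <;> norm_num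

omit [DecidableEq V] in
theorem half_eq (x : V) : (1 / 2 : ℝ) • (1 - szM x) = diagonal (dn x) := by
  rw [szM_eq, sub_sub_cancel, smul_smul]
  norm_num

theorem rho_eq (L : List (V × V)) (β : ℝ) (h : V → ℝ) (x : V) :
    rho L β h x = trace (NormedSpace.exp (-β • ham L h) * diagonal (dn x)) /
      trace (NormedSpace.exp (-β • ham L h)) := by
  unfold rho gib
  rw [half_eq]

theorem exp_split (L : List (V × V)) (h : V → ℝ) {s t β : ℝ} (e : s + t = β) :
    NormedSpace.exp (-s • ham L h) * NormedSpace.exp (-t • ham L h) =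
      NormedSpace.exp (-β • ham L h) := by
  rw [← Matrix.exp_add_of_commute, ← add_smul]
  · congr 2; linarith
  · exact ((Commute.refl (ham L h)).smul_left _).smul_right _

/-- Main bound in the limit `N = ∞`. -/
theorem mT_ge (L : List (V × V)) {β K η : ℝ} (h : V → ℝ) (b : Finset V) (hb : b.Nonempty)
    (hK : 0 ≤ K) {s t : ℝ} (hs : 0 ≤ s) (ht : 0 ≤ t) (e : s + t = β)
    (hr : ∀ x, rho L β h x ≤ η) (x : V) :
    1 - 2 * (Real.exp (K * η) * η) ≤ mT L h (blk K b) s t x := by
  have hb0 : (0 : ℝ) < b.card := by exact_mod_cast hb.card_pos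
  set A := NormedSpace.exp (-s • ham L h) with hA
  set B := NormedSpace.exp (-t • ham L h) with hB
  set k := K / (b.card : ℝ) with hk
  have hk0 : 0 ≤ k := div_nonneg hK hb0.le
  have hA0 := exp_ham L h hs
  have hB0 := exp_ham L h ht
  rw [← hA] at hA0
  rw [← hB] at hB0
  have hβ : 0 ≤ β := by linarith
  have hE0 := exp_ham L h hβ
  set c := (1 + Real.tanh (K / (2 * b.card))) ^ b.card with hc
  have hc0 : 0 < c := pow_pos (by have := Real.neg_one_lt_tanh (K / (2 * b.card)); linarith) _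
  set D := diagonal fun σ : V → Fin 2 => Real.exp (-(k * nb b σ)) with hD
  have hlay : layT (blk K b) = c • D := layT_blk K b hb
  -- positivity
  have hpos : 0 < trace (D * A * B) := by
    have := trace_diag4 (fun σ : V → Fin 2 => Real.exp (-(k * nb b σ))) (fun _ => 1) A B
    rw [Matrix.diagonal_one, Matrix.mul_one] at this
    rw [hD, this]
    refine Finset.sum_pos' (fun p _ => ?_) ⟨(fun _ => 0, fun _ => 0), Finset.mem_univ _, ?_⟩
    · exact mul_nonneg (mul_nonneg (mul_nonneg (hA0.1 _ _) (hB0.1 _ _)) (Real.exp_pos _).le)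
        zero_le_one
    · exact mul_pos (mul_pos (mul_pos (hA0.2 _) (hB0.2 _)) (Real.exp_pos _)) zero_lt_one
  have hAB : A * B = NormedSpace.exp (-β • ham L h) := exp_split L h e
  have hABpos : 0 < trace (A * B) := by
    rw [hAB]
    exact Finset.sum_pos (fun σ _ => hE0.2 σ) Finset.univ_nonempty
  -- the ratio
  have h1 : mT L h (blk K b) s t x =
      1 - 2 * (trace (D * A * diagonal (dn x) * B) / trace (D * A * B)) := by
    unfold mT
    rw [← hA, ← hB, hlay, szM_eq]
    have e1 : c • D * A * (1 - (2 : ℝ) • diagonal (dn x)) * B =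
        c • (D * A * B) - (2 * c) • (D * A * diagonal (dn x) * B) := by
      rw [Matrix.mul_sub, Matrix.sub_mul, Matrix.mul_one]
      simp only [Matrix.smul_mul, Matrix.mul_smul, smul_smul]
    have e2 : c • D * A * B = c • (D * A * B) := by simp only [Matrix.smul_mul]
    rw [e1, e2, Matrix.trace_sub, Matrix.trace_smul, Matrix.trace_smul, smul_eq_mul, smul_eq_mul]
    field_simp
  have h2 := tilt_matrix A B hA0.1 hB0.1 (nb b) (dn x) (nb_nonneg b)
    (fun σ => by unfold dn; split_ifs <;> norm_num) hk0 hABpos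
  have h3 : trace (A * diagonal (dn x) * B) / trace (A * B) = rho L β h x := by
    have e1 : B * A = A * B := by
      rw [hAB, hA, hB, exp_split L h (β := β) (by linarith)]
    rw [rho_eq, ← hAB, Matrix.trace_mul_comm (A * diagonal (dn x)) B, ← Matrix.mul_assoc, e1]
  have h4 : trace (diagonal (nb b) * A * B) / trace (A * B) ≤ b.card * η := by
    have e1 : diagonal (nb b) = ∑ y ∈ b, diagonal (dn y) := by
      ext σ τ
      rw [Matrix.sum_apply]
      by_cases hst : σ = τ
      · subst hst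
        simp only [Matrix.diagonal_apply_eq]
        rfl
      · simp only [Matrix.diagonal_apply_ne _ hst, Finset.sum_const_zero]
    have e2 : trace (diagonal (nb b) * A * B) = ∑ y ∈ b, trace (A * B * diagonal (dn y)) := by
      rw [Matrix.mul_assoc, e1, Finset.sum_mul, Matrix.trace_sum]
      exact Finset.sum_congr rfl fun y _ => Matrix.trace_mul_comm _ _
    rw [e2, Finset.sum_div]
    calc ∑ y ∈ b, trace (A * B * diagonal (dn y)) / trace (A * B) = ∑ y ∈ b, rho L β h y := by
          refine Finset.sum_congr rfl fun y _ => ?_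
          rw [rho_eq, hAB]
      _ ≤ ∑ _y ∈ b, η := Finset.sum_le_sum fun y _ => hr y
      _ = b.card * η := by rw [Finset.sum_const, nsmul_eq_mul]
  have h5 : 0 ≤ rho L β h x := by
    rw [← h3]
    refine div_nonneg ?_ hABpos.le
    have := trace_diag4 (fun _ : V → Fin 2 => 1) (dn x) A B
    rw [Matrix.diagonal_one, Matrix.one_mul] at this
    rw [this]
    refine Finset.sum_nonneg fun p _ => ?_
    refine mul_nonneg (mul_nonneg (mul_nonneg (hA0.1 _ _) (hB0.1 _ _)) zero_le_one) ?_
    unfold dn; split_ifs <;> norm_num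
  have h6 : k * (trace (diagonal (nb b) * A * B) / trace (A * B)) ≤ K * η := by
    calc k * (trace (diagonal (nb b) * A * B) / trace (A * B)) ≤ k * (b.card * η) :=
          mul_le_mul_of_nonneg_left h4 hk0
      _ = K * η := by rw [hk]; field_simp
  have h7 : trace (D * A * diagonal (dn x) * B) / trace (D * A * B) ≤ Real.exp (K * η) * η := by
    refine h2.trans ?_
    rw [h3]
    exact mul_le_mul (Real.exp_le_exp.2 h6) (hr x) h5 (Real.exp_pos _).le
  rw [h1]
  linarith

omit [Fintype V] in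
theorem blk_mem {K : ℝ} (hK : 0 ≤ K) (b : Finset V) (x : V) : 0 ≤ blk K b x ∧ blk K b x ≤ 1 := by
  unfold blk
  split_ifs
  · refine ⟨?_, (Real.tanh_lt_one _).le⟩
    rw [Real.tanh_eq_sinh_div_cosh]
    exact div_nonneg (Real.sinh_nonneg_iff.2 (by positivity)) (Real.cosh_pos _).le
  · norm_num

theorem trMag_of {L : List (V × V)} {β K : ℝ} {b : Finset V} (hD : MagLim L β) (hβ : 0 < β)
    (hb : b.Nonempty) (hK : 0 ≤ K) {η : ℝ} (hη : 0 < η) :
    ∃ N0 : ℕ, ∀ N : ℕ, N0 ≤ N → ∀ h : V → ℝ, (∀ x, 0 ≤ h x ∧ h x ≤ 1) →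
      (∀ x, rho L β h x ≤ η) → ∀ z : Fin (N + 1) × V, z.1 ≠ 0 →
        1 - 4 * Real.exp (K * η) * η ≤ mag (phys L β N) (th β N h (blk K b)) z := by
  obtain ⟨C, N1, hC⟩ := hD
  have hδ : 0 < 2 * (Real.exp (K * η) * η) := by positivity
  obtain ⟨N0, hN0⟩ := exists_nat_gt (C / (2 * (Real.exp (K * η) * η)))
  refine ⟨N1 + N0 + 1, fun N hN h hh hr z hz => ?_⟩
  have hNpos : (0 : ℝ) < N := by exact_mod_cast (by omega : 0 < N)
  have h1 := hC N (by omega) h (blk K b) hh (blk_mem hK b) z hz
  have hs : 0 ≤ β * (((z.1 : ℕ) : ℝ) / N) := by positivity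
  have hz1 : ((z.1 : ℕ) : ℝ) / N ≤ 1 := by
    rw [div_le_one hNpos]
    exact_mod_cast Nat.lt_succ_iff.1 z.1.2
  have ht : 0 ≤ β * (1 - ((z.1 : ℕ) : ℝ) / N) := mul_nonneg hβ.le (by linarith)
  have e : β * (1 - ((z.1 : ℕ) : ℝ) / N) + β * (((z.1 : ℕ) : ℝ) / N) = β := by ring
  have h2 := mT_ge L h b hb hK ht hs e hr z.2
  have h3 : C / N ≤ 2 * (Real.exp (K * η) * η) := by
    rw [div_le_iff₀ hNpos]
    rw [div_lt_iff₀ hδ] at hN0
    have h4 : (N0 : ℝ) ≤ N := by exact_mod_cast (by omega : N0 ≤ N)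
    nlinarith
  have h5 := (abs_le.1 h1).1
  nlinarith

end

end Vale.Agent.P361.LRO
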