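import Vale.Agent.P361.LRO.Mag.TrMag
import Vale.Agent.P361.LRO.Dict.Limit

/-!
P361 LRO: the magnetization with the extra slice `e^{K n_b}` on the physical circuit.
-/

namespace Vale.Agent.P361.LRO

variable {V : Type} [Fintype V] [DecidableEq V]

theorem tr_mag (L : List (V × V)) {β K η : ℝ} (hβ : 0 < β) (hK : 0 ≤ K) (hη : 0 < η)
    {b : Finset V} (hb : b.Nonempty) :
    ∃ N0 : ℕ, ∀ N : ℕ, N0 ≤ N → ∀ h : V → ℝ, (∀ x, 0 ≤ h x ∧ h x ≤ 1) →
      (∀ x, rho L β h x ≤ η) → ∀ z : Fin (N + 1) × V, z.1 ≠ 0 →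
        1 - 4 * Real.exp (K * η) * η ≤ mag (phys L β N) (th β N h (blk K b)) z :=
  trMag_of (Dict.magLim L hβ) hβ hb hK hη

end Vale.Agent.P361.LRO
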